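import Vale.Agent.P038.H139.Basic

/-!
# P038 (H357): the product inequality (★)

`A` is any relation on a finite set `V`, `nb A T = {y | ∃ x ∈ T, A x y}`, `w ≥ 0` a weight, `B`, `U`
two families of sets (relations on `V`, given by their rows). From a Hall condition for the rows
(`hR`) and one for the columns (`hC`) of `U \ B` we get
`μ(P) + μ(Q) ≤ μ(K) + μ(U \ B)`, where `μ = w ⊗ w`.
-/

namespace Vale.Agent.P038.H357

open Finset Vale.Agent.P038.H139

open scoped Classical

variable {V : Type*} [Fintype V]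

/-- The image of a set under a relation. -/
noncomputable def nb (A : V → V → Prop) (T : Finset V) : Finset V :=
  Finset.univ.filter fun y => ∃ x ∈ T, A x y

theorem mem_nb {A : V → V → Prop} {T : Finset V} {y : V} : y ∈ nb A T ↔ ∃ x ∈ T, A x y := by
  simp [nb]

theorem nb_mono {A : V → V → Prop} {S T : Finset V} (h : S ⊆ T) : nb A S ⊆ nb A T := by
  intro y hy
  rw [mem_nb] at hy ⊢
  obtain ⟨x, hx, hxy⟩ := hy
  exact ⟨x, h hx, hxy⟩

/-- Four sets: `W X + W Y ≤ W Z + W T` if `X ∪ Y ⊆ Z ∪ T` and `X ∩ Y ⊆ Z ∩ T`. -/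
theorem W_four {w : V → ℝ} (hw : ∀ v, 0 ≤ w v) {X Y Z T : Finset V}
    (h1 : X ∪ Y ⊆ Z ∪ T) (h2 : X ∩ Y ⊆ Z ∩ T) : W w X + W w Y ≤ W w Z + W w T := by
  have e1 : W w (X ∪ Y) + W w (X ∩ Y) = W w X + W w Y := Finset.sum_union_inter
  have e2 : W w (Z ∪ T) + W w (Z ∩ T) = W w Z + W w T := Finset.sum_union_inter
  have := W_mono hw h1
  have := W_mono hw h2
  linarith

/-- `max (w(T) - w(N(T) \ β \ Z))` over `T ⊆ G`. -/
noncomputable def mm (A : V → V → Prop) (w : V → ℝ) (G β Z : Finset V) : ℝ :=
  G.powerset.sup' ⟨∅, Finset.empty_mem_powerset _⟩ fun T => W w T - W w ((nb A T \ β) \ Z)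

theorem le_mm {A : V → V → Prop} {w : V → ℝ} {G β Z T : Finset V} (h : T ⊆ G) :
    W w T - W w ((nb A T \ β) \ Z) ≤ mm A w G β Z :=
  Finset.le_sup' (fun T => W w T - W w ((nb A T \ β) \ Z)) (Finset.mem_powerset.2 h)

theorem exists_mm (A : V → V → Prop) (w : V → ℝ) (G β Z : Finset V) :
    ∃ T ⊆ G, mm A w G β Z = W w T - W w ((nb A T \ β) \ Z) := by
  obtain ⟨T, hT, h⟩ := Finset.exists_mem_eq_sup' (s := G.powerset)
    ⟨∅, Finset.empty_mem_powerset _⟩ (fun T => W w T - W w ((nb A T \ β) \ Z))
  exact ⟨T, Finset.mem_powerset.1 hT, h⟩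

theorem mm_univ {A : V → V → Prop} {w : V → ℝ} (hw : ∀ v, 0 ≤ w v) (G β : Finset V) :
    mm A w G β Finset.univ = W w G := by
  have e : ∀ T : Finset V, (nb A T \ β) \ (Finset.univ : Finset V) = ∅ := by
    intro T
    ext x
    simp
  refine le_antisymm ?_ ?_
  · obtain ⟨T, hT, h⟩ := exists_mm A w G β Finset.univ
    rw [h, e]
    have := W_mono hw hT
    simp only [W, Finset.sum_empty, sub_zero] at this ⊢
    exact this
  · have h := le_mm (A := A) (w := w) (β := β) (Z := Finset.univ) (Finset.Subset.refl G)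
    rw [e] at h
    simp only [W, Finset.sum_empty, sub_zero] at h ⊢
    exact h

theorem mm_nonneg {A : V → V → Prop} {w : V → ℝ} (G β Z : Finset V) : 0 ≤ mm A w G β Z := by
  have h := le_mm (A := A) (w := w) (β := β) (Z := Z) (Finset.empty_subset G)
  have e : nb A (∅ : Finset V) = ∅ := by
    ext x
    simp [mem_nb]
  rw [e] at h
  simpa [W] using h

/-- The increment of `mm` is at most `w u`, and zero if `u ∉ N(G) \ β`. -/
theorem mm_insert_le {A : V → V → Prop} {w : V → ℝ} (hw : ∀ v, 0 ≤ w v) (G β Z : Finset V)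
    (u : V) : mm A w G β (insert u Z) - mm A w G β Z ≤ if u ∈ nb A G \ β then w u else 0 := by
  obtain ⟨T, hT, h⟩ := exists_mm A w G β (insert u Z)
  have h1 := le_mm (A := A) (w := w) (β := β) (Z := Z) hT
  have h2 : W w ((nb A T \ β) \ Z) ≤ W w ((nb A T \ β) \ insert u Z) +
      if u ∈ nb A G \ β then w u else 0 := by
    by_cases hu : u ∈ nb A G \ β
    · rw [if_pos hu]
      have h3 : (nb A T \ β) \ Z ⊆ ((nb A T \ β) \ insert u Z) ∪ {u} := by
        intro x hx
        by_cases hxu : x = u
        · exact Finset.mem_union_right _ (Finset.mem_singleton.2 hxu)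
        · refine Finset.mem_union_left _ ?_
          rw [Finset.mem_sdiff] at hx ⊢
          refine ⟨hx.1, fun h4 => ?_⟩
          rcases Finset.mem_insert.1 h4 with h4 | h4
          · exact hxu h4
          · exact hx.2 h4
      have h4 := W_mono hw h3
      have h5 : W w (((nb A T \ β) \ insert u Z) ∪ {u}) =
          W w ((nb A T \ β) \ insert u Z) + W w {u} := by
        refine W_union ?_
        rw [Finset.disjoint_singleton_right]
        intro h6
        exact (Finset.mem_sdiff.1 h6).2 (Finset.mem_insert_self _ _)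
      have h6 : W w {u} = w u := by simp [W]
      rw [h5, h6] at h4
      exact h4
    · rw [if_neg hu, add_zero]
      refine W_mono hw ?_
      intro x hx
      rw [Finset.mem_sdiff] at hx ⊢
      refine ⟨hx.1, fun h4 => ?_⟩
      rcases Finset.mem_insert.1 h4 with h4 | h4
      · subst h4
        refine hu ?_
        rw [Finset.mem_sdiff] at hx ⊢
        exact ⟨nb_mono hT hx.1.1, hx.1.2⟩
      · exact hx.2 h4
  linarith

theorem mm_mono {A : V → V → Prop} {w : V → ℝ} (hw : ∀ v, 0 ≤ w v) (G β : Finset V)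
    {Z Z' : Finset V} (h : Z ⊆ Z') : mm A w G β Z ≤ mm A w G β Z' := by
  obtain ⟨T, hT, h1⟩ := exists_mm A w G β Z
  have h2 := le_mm (A := A) (w := w) (β := β) (Z := Z') hT
  have h3 : W w ((nb A T \ β) \ Z') ≤ W w ((nb A T \ β) \ Z) :=
    W_mono hw (Finset.sdiff_subset_sdiff (Finset.Subset.refl _) h)
  linarith

/-- (M): the increments of `mm` are monotone. -/
theorem mm_M {A : V → V → Prop} {w : V → ℝ} (hw : ∀ v, 0 ≤ w v) (P β G B Z : Finset V) (u : V)
    (hβ : β ⊆ nb A B) (hPG : P \ B ⊆ G) (hGB : Disjoint G B) (hu : u ∉ nb A B) (huZ : u ∉ Z) :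
    mm A w P β (insert u Z) + mm A w G (nb A B) Z ≤
      mm A w P β Z + mm A w G (nb A B) (insert u Z) := by
  obtain ⟨T, hT, h1⟩ := exists_mm A w P β (insert u Z)
  obtain ⟨T', hT', h2⟩ := exists_mm A w G (nb A B) Z
  have hT1 : (T ∩ B) ∪ (T ∩ T') ⊆ P := by
    intro x hx
    rcases Finset.mem_union.1 hx with hx | hx
    · exact hT (Finset.mem_inter.1 hx).1
    · exact hT (Finset.mem_inter.1 hx).1
  have hT2 : T' ∪ (T \ B) ⊆ G := by
    intro x hx
    rcases Finset.mem_union.1 hx with hx | hx
    · exact hT' hx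
    · exact hPG (Finset.mem_sdiff.2 ⟨hT (Finset.mem_sdiff.1 hx).1, (Finset.mem_sdiff.1 hx).2⟩)
  have h3 := le_mm (A := A) (w := w) (β := β) (Z := Z) hT1
  have h4 := le_mm (A := A) (w := w) (β := nb A B) (Z := insert u Z) hT2
  have hTB' : ∀ x ∈ T', x ∉ B := fun x hx hxB =>
    (Finset.disjoint_left.1 hGB) (hT' hx) hxB
  have h5 : W w ((T ∩ B) ∪ (T ∩ T')) + W w (T' ∪ (T \ B)) = W w T + W w T' := by
    have e1 : W w (((T ∩ B) ∪ (T ∩ T')) ∪ (T' ∪ (T \ B))) +
        W w (((T ∩ B) ∪ (T ∩ T')) ∩ (T' ∪ (T \ B))) =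
        W w ((T ∩ B) ∪ (T ∩ T')) + W w (T' ∪ (T \ B)) := Finset.sum_union_inter
    have e2 : W w (T ∪ T') + W w (T ∩ T') = W w T + W w T' := Finset.sum_union_inter
    have e3 : ((T ∩ B) ∪ (T ∩ T')) ∪ (T' ∪ (T \ B)) = T ∪ T' := by
      ext x
      simp only [Finset.mem_union, Finset.mem_inter, Finset.mem_sdiff]
      tauto
    have e4 : ((T ∩ B) ∪ (T ∩ T')) ∩ (T' ∪ (T \ B)) = T ∩ T' := by
      ext x
      have := hTB' x
      simp only [Finset.mem_union, Finset.mem_inter, Finset.mem_sdiff]
      tauto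
    rw [e3, e4] at e1
    linarith
  have hN1 : ∀ v, v ∈ nb A ((T ∩ B) ∪ (T ∩ T')) → v ∈ nb A T ∧ (v ∉ nb A B → v ∈ nb A T') := by
    intro v hv
    obtain ⟨x, hx, hxv⟩ := mem_nb.1 hv
    rcases Finset.mem_union.1 hx with hx | hx
    · exact ⟨mem_nb.2 ⟨x, (Finset.mem_inter.1 hx).1, hxv⟩, fun h =>
        absurd (mem_nb.2 ⟨x, (Finset.mem_inter.1 hx).2, hxv⟩) h⟩
    · exact ⟨mem_nb.2 ⟨x, (Finset.mem_inter.1 hx).1, hxv⟩, fun _ =>
        mem_nb.2 ⟨x, (Finset.mem_inter.1 hx).2, hxv⟩⟩
  have hN2 : ∀ v, v ∈ nb A (T' ∪ (T \ B)) → v ∈ nb A T' ∨ v ∈ nb A T := by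
    intro v hv
    obtain ⟨x, hx, hxv⟩ := mem_nb.1 hv
    rcases Finset.mem_union.1 hx with hx | hx
    · exact Or.inl (mem_nb.2 ⟨x, hx, hxv⟩)
    · exact Or.inr (mem_nb.2 ⟨x, (Finset.mem_sdiff.1 hx).1, hxv⟩)
  have h6 : W w ((nb A ((T ∩ B) ∪ (T ∩ T')) \ β) \ Z) +
      W w ((nb A (T' ∪ (T \ B)) \ nb A B) \ insert u Z) ≤
      W w ((nb A T \ β) \ insert u Z) + W w ((nb A T' \ nb A B) \ Z) := by
    refine W_four hw ?_ ?_
    · intro v hv
      rcases Finset.mem_union.1 hv with hv | hv
      · simp only [Finset.mem_sdiff] at hv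
        obtain ⟨⟨hv1, hv2⟩, hv3⟩ := hv
        obtain ⟨ha, hb⟩ := hN1 v hv1
        by_cases hvu : v = u
        · subst hvu
          refine Finset.mem_union_right _ ?_
          simp only [Finset.mem_sdiff]
          exact ⟨⟨hb hu, hu⟩, hv3⟩
        · refine Finset.mem_union_left _ ?_
          simp only [Finset.mem_sdiff, Finset.mem_insert]
          exact ⟨⟨ha, hv2⟩, fun h => h.elim hvu hv3⟩
      · simp only [Finset.mem_sdiff, Finset.mem_insert] at hv
        obtain ⟨⟨hv1, hv2⟩, hv3⟩ := hv
        rcases hN2 v hv1 with h | h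
        · refine Finset.mem_union_right _ ?_
          simp only [Finset.mem_sdiff]
          exact ⟨⟨h, hv2⟩, fun h' => hv3 (Or.inr h')⟩
        · refine Finset.mem_union_left _ ?_
          simp only [Finset.mem_sdiff, Finset.mem_insert]
          exact ⟨⟨h, fun h' => hv2 (hβ h')⟩, hv3⟩
    · intro v hv
      obtain ⟨hva, hvb⟩ := Finset.mem_inter.1 hv
      simp only [Finset.mem_sdiff, Finset.mem_insert] at hva hvb
      obtain ⟨ha, hb⟩ := hN1 v hva.1.1
      refine Finset.mem_inter.2 ⟨?_, ?_⟩
      · simp only [Finset.mem_sdiff, Finset.mem_insert]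
        exact ⟨⟨ha, hva.1.2⟩, hvb.2⟩
      · simp only [Finset.mem_sdiff]
        exact ⟨⟨hb hvb.1.2, hvb.1.2⟩, hva.2⟩
  linarith

/-- Finite layer cake. -/
theorem layer {w : V → ℝ} (hw : ∀ v, 0 ≤ w v) (n : ℕ) : ∀ f g : V → ℝ, (∀ v, 0 ≤ f v) →
    (∀ v, 0 ≤ g v) →
    (∀ s : ℝ, 0 < s → W w (Finset.univ.filter fun v => s ≤ f v) ≤
      W w (Finset.univ.filter fun v => s ≤ g v)) →
    (Finset.univ.filter fun v => 0 < f v).card = n → ∑ v, w v * f v ≤ ∑ v, w v * g v := by
  induction n using Nat.strong_induction_on with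
  | _ n ih =>
    intro f g hf hg h hn
    by_cases hS : (Finset.univ.filter fun v => 0 < f v).Nonempty
    · obtain ⟨v0, hv0, hmin⟩ := Finset.exists_min_image _ f hS
      have ht : 0 < f v0 := (Finset.mem_filter.1 hv0).2
      set t := f v0 with ht'
      have hmin' : ∀ v, 0 < f v → t ≤ f v := fun v hv =>
        hmin v (Finset.mem_filter.2 ⟨Finset.mem_univ _, hv⟩)
      have e1 : ∀ (F : V → ℝ) (s : ℝ), 0 < s →
          (Finset.univ.filter fun v => s ≤ F v - min (F v) t) =
          Finset.univ.filter fun v => s + t ≤ F v := by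
        intro F s hs
        ext v
        simp only [Finset.mem_filter, Finset.mem_univ, true_and]
        constructor
        · intro h1
          rcases le_total (F v) t with h2 | h2
          · rw [min_eq_left h2] at h1
            linarith
          · rw [min_eq_right h2] at h1
            linarith
        · intro h1
          rw [min_eq_right (by linarith)]
          linarith
      have h1 := ih (Finset.univ.filter fun v => 0 < f v - min (f v) t).card (by
          rw [← hn]
          refine Finset.card_lt_card (Finset.ssubset_iff_subset_ne.2 ⟨?_, fun he => ?_⟩)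
          · intro v hv
            simp only [Finset.mem_filter, Finset.mem_univ, true_and] at hv ⊢
            rcases lt_or_eq_of_le (hf v) with h2 | h2
            · exact h2
            · rw [← h2, min_eq_left ht.le] at hv
              linarith
          · have h2 : v0 ∈ Finset.univ.filter fun v => 0 < f v - min (f v) t := by
              rw [he]
              exact hv0
            simp only [Finset.mem_filter, Finset.mem_univ, true_and] at h2
            rw [← ht', min_self] at h2
            linarith)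
        (fun v => f v - min (f v) t) (fun v => g v - min (g v) t)
        (fun v => sub_nonneg.2 (min_le_left _ _)) (fun v => sub_nonneg.2 (min_le_left _ _))
        (fun s hs => by
          rw [e1 f s hs, e1 g s hs]
          exact h (s + t) (by linarith)) rfl
      have h2 : ∑ v, w v * min (f v) t ≤ ∑ v, w v * min (g v) t := by
        have h3 : ∑ v, w v * min (f v) t = t * W w (Finset.univ.filter fun v => t ≤ f v) := by
          rw [W, Finset.mul_sum, Finset.sum_filter]
          refine Finset.sum_congr rfl fun v _ => ?_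
          by_cases hv : t ≤ f v
          · rw [if_pos hv, min_eq_right hv, mul_comm]
          · have h4 : f v = 0 := by
              rcases lt_or_eq_of_le (hf v) with h5 | h5
              · exact absurd (hmin' v h5) hv
              · exact h5.symm
            rw [if_neg hv, h4, min_eq_left ht.le, mul_zero]
        have h4 : t * W w (Finset.univ.filter fun v => t ≤ g v) ≤ ∑ v, w v * min (g v) t := by
          rw [W, Finset.mul_sum, Finset.sum_filter]
          refine Finset.sum_le_sum fun v _ => ?_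
          by_cases hv : t ≤ g v
          · rw [if_pos hv, min_eq_right hv, mul_comm]
          · rw [if_neg hv]
            exact mul_nonneg (hw v) (le_min (hg v) ht.le)
        have h5 := mul_le_mul_of_nonneg_left (h t ht) ht.le
        linarith
      have h3 : ∀ F : V → ℝ, ∑ v, w v * F v =
          ∑ v, w v * (F v - min (F v) t) + ∑ v, w v * min (F v) t := by
        intro F
        rw [← Finset.sum_add_distrib]
        exact Finset.sum_congr rfl fun v _ => by ring
      rw [h3 f, h3 g]
      exact add_le_add h1 h2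
    · have h1 : ∀ v, f v = 0 := by
        intro v
        rcases lt_or_eq_of_le (hf v) with h2 | h2
        · exact absurd ⟨v, Finset.mem_filter.2 ⟨Finset.mem_univ _, h2⟩⟩ hS
        · exact h2.symm
      simp only [h1, mul_zero, Finset.sum_const_zero]
      exact Finset.sum_nonneg fun v _ => mul_nonneg (hw v) (hg v)

/-- Row `z` of `AU`: the intersection of the rows `U z'` with `A z' z`. -/
noncomputable def AA (A : V → V → Prop) (U : V → Finset V) (z : V) : Finset V :=
  Finset.univ.filter fun x => ∀ z', A z' z → x ∈ U z'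

theorem mem_AA {A : V → V → Prop} {U : V → Finset V} {z x : V} :
    x ∈ AA A U z ↔ ∀ z', A z' z → x ∈ U z' := by
  simp [AA]

/-- Row `z` of `P`. -/
noncomputable def PP (A : V → V → Prop) (B U : V → Finset V) (z : V) : Finset V :=
  AA A U z \ AA A B z

/-- The common part `β_z` of the sets `N(B z')`, `A z' z`. -/
noncomputable def bet (A : V → V → Prop) (B : V → Finset V) (z : V) : Finset V :=
  AA A (fun z' => nb A (B z')) z

/-- (a) Row Hall condition. -/
theorem rowHall {A : V → V → Prop} {w : V → ℝ} (hw : ∀ v, 0 ≤ w v) {B U : V → Finset V}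
    (hR : ∀ z' T, T ⊆ U z' \ B z' → W w T ≤ W w (nb A T \ nb A (B z'))) (z : V)
    (S : Finset V) : (∀ z' ∈ S, A z' z) → ∀ T ⊆ AA A U z,
      W w (T \ (Finset.univ.filter fun x => ∀ z' ∈ S, x ∈ B z')) ≤
        W w (nb A T \ (Finset.univ.filter fun x => ∀ z' ∈ S, x ∈ nb A (B z'))) := by
  induction S using Finset.induction_on with
  | empty =>
    intro _ T _
    have e : T \ (Finset.univ.filter fun x => ∀ z' ∈ (∅ : Finset V), x ∈ B z') = ∅ := by
      ext x
      simp
    rw [e]
    simp only [W, Finset.sum_empty]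
    exact Finset.sum_nonneg fun v _ => hw v
  | insert z0 S hz0 ih =>
    intro hS T hT
    have hS' : ∀ z' ∈ S, A z' z := fun z' hz' => hS z' (Finset.mem_insert_of_mem hz')
    have h1 := ih hS' (T ∩ B z0) (Finset.inter_subset_left.trans hT)
    have h2 := hR z0 (T \ B z0) (by
      intro x hx
      rw [Finset.mem_sdiff] at hx ⊢
      exact ⟨mem_AA.1 (hT hx.1) z0 (hS z0 (Finset.mem_insert_self _ _)), hx.2⟩)
    have h3 : W w (T \ (Finset.univ.filter fun x => ∀ z' ∈ insert z0 S, x ∈ B z')) =
        W w (T \ B z0) +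
        W w ((T ∩ B z0) \ (Finset.univ.filter fun x => ∀ z' ∈ S, x ∈ B z')) := by
      rw [← W_union]
      · congr 1
        ext x
        simp only [Finset.mem_sdiff, Finset.mem_union, Finset.mem_inter, Finset.mem_filter,
          Finset.mem_univ, true_and, Finset.forall_mem_insert]
        tauto
      · rw [Finset.disjoint_left]
        intro x hx hx'
        simp only [Finset.mem_sdiff, Finset.mem_inter] at hx hx'
        exact hx.2 hx'.1.2
    have h4 : W w (nb A (T \ B z0) \ nb A (B z0)) +
        W w (nb A (T ∩ B z0) \ (Finset.univ.filter fun x => ∀ z' ∈ S, x ∈ nb A (B z'))) ≤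
        W w (nb A T \ (Finset.univ.filter fun x => ∀ z' ∈ insert z0 S, x ∈ nb A (B z'))) := by
      rw [← W_union]
      · refine W_mono hw ?_
        intro x hx
        simp only [Finset.mem_sdiff, Finset.mem_union, Finset.mem_filter,
          Finset.mem_univ, true_and, Finset.forall_mem_insert] at hx ⊢
        rcases hx with hx | hx
        · exact ⟨nb_mono Finset.sdiff_subset hx.1, fun h => hx.2 h.1⟩
        · exact ⟨nb_mono Finset.inter_subset_left hx.1, fun h => hx.2 h.2⟩
      · rw [Finset.disjoint_left]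
        intro x hx hx'
        rw [Finset.mem_sdiff] at hx hx'
        exact hx.2 (nb_mono Finset.inter_subset_right hx'.1)
    linarith

/-- (b) Column Hall condition. -/
theorem colHall {A : V → V → Prop} {w : V → ℝ} (hw : ∀ v, 0 ≤ w v) {B U : V → Finset V}
    (hC : ∀ x T, (∀ z' ∈ T, x ∈ U z' ∧ x ∉ B z') →
      W w T ≤ W w (nb A T ∩ Finset.univ.filter fun z => x ∈ AA A U z)) (u : V)
    (S : Finset V) : (∀ x ∈ S, A x u) → ∀ T, (∀ z' ∈ T, u ∉ nb A (B z')) →
      W w (T.filter fun z' => ∃ x ∈ S, x ∈ U z') ≤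
        W w (nb A T ∩ Finset.univ.filter fun z => ∃ x ∈ S, x ∈ AA A U z) := by
  induction S using Finset.induction_on with
  | empty =>
    intro _ T _
    have e : (T.filter fun z' => ∃ x ∈ (∅ : Finset V), x ∈ U z') = ∅ := by
      ext x
      simp
    rw [e]
    simp only [W, Finset.sum_empty]
    exact Finset.sum_nonneg fun v _ => hw v
  | insert x0 S hx0 ih =>
    intro hS T hT
    have hS' : ∀ x ∈ S, A x u := fun x hx => hS x (Finset.mem_insert_of_mem hx)
    have h1 := ih hS' (T.filter fun z' => x0 ∉ U z')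
      (fun z' hz' => hT z' (Finset.mem_filter.1 hz').1)
    have h2 := hC x0 (T.filter fun z' => x0 ∈ U z') (by
      intro z' hz'
      obtain ⟨ha, hb⟩ := Finset.mem_filter.1 hz'
      refine ⟨hb, fun h => hT z' ha ?_⟩
      exact mem_nb.2 ⟨x0, h, hS x0 (Finset.mem_insert_self _ _)⟩)
    have h3 : W w (T.filter fun z' => ∃ x ∈ insert x0 S, x ∈ U z') =
        W w (T.filter fun z' => x0 ∈ U z') +
        W w ((T.filter fun z' => x0 ∉ U z').filter fun z' => ∃ x ∈ S, x ∈ U z') := by
      rw [← W_union]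
      · congr 1
        ext z'
        simp only [Finset.mem_union, Finset.mem_filter, Finset.exists_mem_insert]
        tauto
      · rw [Finset.disjoint_left]
        intro x hx hx'
        simp only [Finset.mem_filter] at hx hx'
        exact hx'.1.2 hx.2
    have h4 : W w (nb A (T.filter fun z' => x0 ∈ U z') ∩
          Finset.univ.filter fun z => x0 ∈ AA A U z) +
        W w (nb A (T.filter fun z' => x0 ∉ U z') ∩
          Finset.univ.filter fun z => ∃ x ∈ S, x ∈ AA A U z) ≤
        W w (nb A T ∩ Finset.univ.filter fun z => ∃ x ∈ insert x0 S, x ∈ AA A U z) := by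
      rw [← W_union]
      · refine W_mono hw ?_
        intro z hz
        simp only [Finset.mem_union, Finset.mem_inter, Finset.mem_filter,
          Finset.mem_univ, true_and, Finset.exists_mem_insert] at hz ⊢
        rcases hz with hz | hz
        · exact ⟨nb_mono (Finset.filter_subset _ _) hz.1, Or.inl hz.2⟩
        · exact ⟨nb_mono (Finset.filter_subset _ _) hz.1, Or.inr hz.2⟩
      · rw [Finset.disjoint_left]
        intro z hz hz'
        simp only [Finset.mem_inter, Finset.mem_filter, Finset.mem_univ, true_and] at hz hz'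
        obtain ⟨z', h5, h6⟩ := mem_nb.1 hz'.1
        exact (Finset.mem_filter.1 h5).2 (mem_AA.1 hz.2 z' h6)
    linarith

/-- The product inequality (★). -/
theorem star {A : V → V → Prop} {w : V → ℝ} (hw : ∀ v, 0 ≤ w v) {B U : V → Finset V}
    (hR : ∀ z' T, T ⊆ U z' \ B z' → W w T ≤ W w (nb A T \ nb A (B z')))
    (hC : ∀ x T, (∀ z' ∈ T, x ∈ U z' ∧ x ∉ B z') →
      W w T ≤ W w (nb A T ∩ Finset.univ.filter fun z => x ∈ AA A U z)) :
    ∑ z, w z * W w (PP A B U z) + ∑ z, w z * W w (nb A (U z) \ nb A (B z)) ≤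
      ∑ z, w z * W w (nb A (AA A U z) \ bet A B z) + ∑ z, w z * W w (U z \ B z) := by
  -- the two families of increments
  set K : V → Finset V := fun z => nb A (AA A U z) \ bet A B z with hK
  set Q : V → Finset V := fun z => nb A (U z) \ nb A (B z) with hQ
  set G : V → Finset V := fun z => U z \ B z with hG
  set mK : V → Finset V → ℝ := fun z Z => mm A w (PP A B U z) (bet A B z) Z with hmK
  set mQ : V → Finset V → ℝ := fun z Z => mm A w (G z) (nb A (B z)) Z with hmQ
  have eK : ∀ z, nb A (PP A B U z) \ bet A B z = K z := by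
    intro z
    ext u
    simp only [hK, Finset.mem_sdiff]
    constructor
    · rintro ⟨h1, h2⟩
      exact ⟨nb_mono Finset.sdiff_subset h1, h2⟩
    · rintro ⟨h1, h2⟩
      refine ⟨?_, h2⟩
      obtain ⟨x, hx, hxu⟩ := mem_nb.1 h1
      refine mem_nb.2 ⟨x, Finset.mem_sdiff.2 ⟨hx, fun h3 => h2 ?_⟩, hxu⟩
      refine mem_AA.2 fun z' hz' => mem_nb.2 ⟨x, mem_AA.1 h3 z' hz', hxu⟩
  have eQ : ∀ z, nb A (G z) \ nb A (B z) = Q z := by
    intro z
    ext u
    simp only [hQ, hG, Finset.mem_sdiff]
    constructor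
    · rintro ⟨h1, h2⟩
      exact ⟨nb_mono Finset.sdiff_subset h1, h2⟩
    · rintro ⟨h1, h2⟩
      refine ⟨?_, h2⟩
      obtain ⟨x, hx, hxu⟩ := mem_nb.1 h1
      exact mem_nb.2 ⟨x, Finset.mem_sdiff.2 ⟨hx, fun h3 => h2 (mem_nb.2 ⟨x, h3, hxu⟩)⟩, hxu⟩
  set Φ : Finset V → ℝ := fun Z =>
    ∑ z, w z * (W w (K z ∩ Z) - mK z Z) - ∑ z, w z * (W w (Q z ∩ Z) - mQ z Z) with hΦ
  have hstep : ∀ (u : V) (Z : Finset V), u ∉ Z → Φ Z ≤ Φ (insert u Z) := by
    intro u Z huZ
    have hW : ∀ S : Finset V, W w (S ∩ insert u Z) - W w (S ∩ Z) = if u ∈ S then w u else 0 := by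
      intro S
      by_cases hu : u ∈ S
      · rw [if_pos hu]
        have e : S ∩ insert u Z = (S ∩ Z) ∪ {u} := by
          ext x
          simp only [Finset.mem_inter, Finset.mem_insert, Finset.mem_union, Finset.mem_singleton]
          constructor
          · rintro ⟨h1, h2 | h2⟩
            · exact Or.inr h2
            · exact Or.inl ⟨h1, h2⟩
          · rintro (⟨h1, h2⟩ | h2)
            · exact ⟨h1, Or.inr h2⟩
            · exact ⟨h2 ▸ hu, Or.inl h2⟩
        rw [e, W_union (by
          rw [Finset.disjoint_singleton_right]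
          exact fun h => huZ (Finset.mem_inter.1 h).2)]
        simp [W]
      · rw [if_neg hu]
        have e : S ∩ insert u Z = S ∩ Z := by
          ext x
          simp only [Finset.mem_inter, Finset.mem_insert]
          constructor
          · rintro ⟨h1, h2 | h2⟩
            · exact absurd (h2 ▸ h1) hu
            · exact ⟨h1, h2⟩
          · rintro ⟨h1, h2⟩
            exact ⟨h1, Or.inr h2⟩
        rw [e, sub_self]
    set g : V → ℝ := fun z => (if u ∈ K z then w u else 0) - (mK z (insert u Z) - mK z Z) with hg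
    set f : V → ℝ := fun z => (if u ∈ Q z then w u else 0) - (mQ z (insert u Z) - mQ z Z) with hf
    have hg0 : ∀ z, 0 ≤ g z := by
      intro z
      have h1 := mm_insert_le (A := A) hw (PP A B U z) (bet A B z) Z u
      rw [eK z] at h1
      simp only [hg, hmK]
      linarith
    have hf0 : ∀ z, 0 ≤ f z := by
      intro z
      have h1 := mm_insert_le (A := A) hw (G z) (nb A (B z)) Z u
      rw [eQ z] at h1
      simp only [hf, hmQ]
      linarith
    have hfQ : ∀ z, 0 < f z → u ∈ Q z := by
      intro z hz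
      by_contra hu
      have h1 := mm_mono (A := A) hw (G z) (nb A (B z)) (Finset.subset_insert u Z)
      simp only [hf, hmQ, if_neg hu] at hz
      linarith
    have hfg : ∀ z' z, A z' z → 0 < f z' → u ∈ K z → f z' ≤ g z := by
      intro z' z hA hz' hz
      have hu := hfQ z' hz'
      have h1 := mm_M (A := A) hw (PP A B U z) (bet A B z) (G z') (B z') Z u
        (by
          intro x hx
          exact mem_AA.1 hx z' hA)
        (by
          intro x hx
          obtain ⟨h2, h3⟩ := Finset.mem_sdiff.1 hx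
          exact Finset.mem_sdiff.2 ⟨mem_AA.1 (Finset.mem_sdiff.1 h2).1 z' hA, h3⟩)
        Finset.sdiff_disjoint (Finset.mem_sdiff.1 hu).2 huZ
      simp only [hf, hg, hmK, hmQ, if_pos hu, if_pos hz]
      linarith
    have h1 := layer hw _ f g hf0 hg0 (by
      intro s hs
      have hT : ∀ z' ∈ (Finset.univ.filter fun v => s ≤ f v), 0 < f z' := fun z' hz' =>
        lt_of_lt_of_le hs (Finset.mem_filter.1 hz').2
      have h2 := colHall hw hC u (Finset.univ.filter fun x => A x u)
        (fun x hx => (Finset.mem_filter.1 hx).2) (Finset.univ.filter fun v => s ≤ f v)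
        (fun z' hz' => (Finset.mem_sdiff.1 (hfQ z' (hT z' hz'))).2)
      refine (W_mono hw ?_).trans (h2.trans (W_mono hw ?_))
      · intro z' hz'
        obtain ⟨x, hx, hxu⟩ := mem_nb.1 (Finset.mem_sdiff.1 (hfQ z' (hT z' hz'))).1
        exact Finset.mem_filter.2 ⟨hz', x, Finset.mem_filter.2 ⟨Finset.mem_univ _, hxu⟩, hx⟩
      intro z hz
      obtain ⟨h3, h4⟩ := Finset.mem_inter.1 hz
      obtain ⟨z', hz', hA⟩ := mem_nb.1 h3
      obtain ⟨-, x, hx, hxA⟩ := Finset.mem_filter.1 h4
      have hu := hfQ z' (hT z' hz')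
      have hzK : u ∈ K z := by
        refine Finset.mem_sdiff.2 ⟨mem_nb.2 ⟨x, hxA, (Finset.mem_filter.1 hx).2⟩, fun h5 => ?_⟩
        exact (Finset.mem_sdiff.1 hu).2 (mem_AA.1 h5 z' hA)
      refine Finset.mem_filter.2 ⟨Finset.mem_univ _, ?_⟩
      exact (Finset.mem_filter.1 hz').2.trans (hfg z' z hA (hT z' hz') hzK)) rfl
    have h2 : Φ (insert u Z) - Φ Z = ∑ z, w z * g z - ∑ z, w z * f z := by
      simp only [hΦ]
      have e1 : ∑ z, w z * g z = ∑ z, w z * (W w (K z ∩ insert u Z) - mK z (insert u Z)) -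
          ∑ z, w z * (W w (K z ∩ Z) - mK z Z) := by
        rw [← Finset.sum_sub_distrib]
        refine Finset.sum_congr rfl fun z _ => ?_
        simp only [hg]
        rw [← hW (K z)]
        ring
      have e2 : ∑ z, w z * f z = ∑ z, w z * (W w (Q z ∩ insert u Z) - mQ z (insert u Z)) -
          ∑ z, w z * (W w (Q z ∩ Z) - mQ z Z) := by
        rw [← Finset.sum_sub_distrib]
        refine Finset.sum_congr rfl fun z _ => ?_
        simp only [hf]
        rw [← hW (Q z)]
        ring
      rw [e1, e2]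
      ring
    linarith
  have hmono : ∀ Z : Finset V, Φ ∅ ≤ Φ Z := by
    intro Z
    induction Z using Finset.induction_on with
    | empty => exact le_refl _
    | insert u Z hu ih => exact ih.trans (hstep u Z hu)
  have h0 : 0 ≤ Φ ∅ := by
    simp only [hΦ]
    have h1 : ∀ z, mK z ∅ ≤ 0 := by
      intro z
      obtain ⟨T, hT, h2⟩ := exists_mm A w (PP A B U z) (bet A B z) ∅
      have h3 := rowHall hw hR z (Finset.univ.filter fun z' => A z' z)
        (fun x hx => (Finset.mem_filter.1 hx).2) T (hT.trans Finset.sdiff_subset)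
      have e1 : T \ (Finset.univ.filter fun x => ∀ z' ∈ Finset.univ.filter fun z' => A z' z,
          x ∈ B z') = T := by
        ext x
        simp only [Finset.mem_sdiff, Finset.mem_filter, Finset.mem_univ, true_and]
        refine ⟨fun h => h.1, fun h => ⟨h, fun h4 => ?_⟩⟩
        exact (Finset.mem_sdiff.1 (hT h)).2 (mem_AA.2 h4)
      have e2 : (Finset.univ.filter fun x => ∀ z' ∈ Finset.univ.filter fun z' => A z' z,
          x ∈ nb A (B z')) = bet A B z := by
        ext x
        simp [bet, mem_AA]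
      rw [e1, e2] at h3
      simp only [hmK]
      rw [h2, Finset.sdiff_empty]
      linarith
    have h2 : ∀ z, 0 ≤ mQ z ∅ := fun z => mm_nonneg _ _ _
    have h3 : 0 ≤ ∑ z, w z * (W w (K z ∩ ∅) - mK z ∅) := by
      refine Finset.sum_nonneg fun z _ => mul_nonneg (hw z) ?_
      rw [Finset.inter_empty]
      have := h1 z
      simp only [W, Finset.sum_empty]
      linarith
    have h4 : ∑ z, w z * (W w (Q z ∩ ∅) - mQ z ∅) ≤ 0 := by
      refine Finset.sum_nonpos fun z _ => mul_nonpos_of_nonneg_of_nonpos (hw z) ?_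
      rw [Finset.inter_empty]
      have := h2 z
      simp only [W, Finset.sum_empty]
      linarith
    linarith
  have h1 : 0 ≤ Φ Finset.univ := h0.trans (hmono _)
  have e1 : Φ Finset.univ = (∑ z, w z * W w (K z) - ∑ z, w z * W w (PP A B U z)) -
      (∑ z, w z * W w (Q z) - ∑ z, w z * W w (G z)) := by
    have ea : ∑ z, w z * (W w (K z) - mK z Finset.univ) =
        ∑ z, w z * W w (K z) - ∑ z, w z * W w (PP A B U z) := by
      rw [← Finset.sum_sub_distrib]
      refine Finset.sum_congr rfl fun z _ => ?_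
      simp only [hmK]
      rw [mm_univ hw]
      ring
    have eb : ∑ z, w z * (W w (Q z) - mQ z Finset.univ) =
        ∑ z, w z * W w (Q z) - ∑ z, w z * W w (G z) := by
      rw [← Finset.sum_sub_distrib]
      refine Finset.sum_congr rfl fun z _ => ?_
      simp only [hmQ]
      rw [mm_univ hw]
      ring
    simp only [hΦ, Finset.inter_univ]
    rw [ea, eb]
  rw [e1] at h1
  linarith

end Vale.Agent.P038.H357
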